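import Vale.Agent.P267.H821.Section
import Vale.Agent.P267.H662.KPull
import Vale.Agent.P267.H662.KCanon
import Vale.Agent.P267.H622.Reg
import Vale.Agent.P267.H283.Facts2
import Vale.Agent.P267.H399.LBCurv

/-!
# P267 / K1 (3): the Ricci form of a hermitian metric and the curvature of the canonical bundle
-/

set_option linter.unusedVariables false
set_option linter.unusedSectionVars false

open scoped Manifold ContDiff ComplexConjugate Topology
open Set Filter
open Vale.Agent.P267.FL Vale.Agent.P267.BlockC Vale.Agent.P267.H662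
open Vale.Agent.P267.H821 (ricF FK det_loc11_re det_loc11_pos det_pos contDiffOn_logdet)

noncomputable section

namespace Vale.Agent.P267.H928.K1

section ric

variable {X : Type*} [TopologicalSpace X] [ChartedSpace C2 X] [IsManifold 𝓘(ℂ, C2) ω X]
variable {ι : Type} [Fintype ι] [DecidableEq ι]

/-- `log (|σ|² det g)` -/
def lwt (g : X → Matrix (Fin 2) (Fin 2) ℂ) (σ : X → EuclideanSpace ℂ ι) (x : X) : ℂ :=
  ((Real.log (‖σ x‖ ^ 2) + Real.log (g x).det.re : ℝ) : ℂ)

/-- `log det g` in a chart -/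
def ldt (g : X → Matrix (Fin 2) (Fin 2) ℂ) (e : Ch X) (z : C2) : ℂ :=
  ((Real.log (loc11 e g z).det.re : ℝ) : ℂ)

variable {g : X → Matrix (Fin 2) (Fin 2) ℂ} {σ : X → EuclideanSpace ℂ ι}

theorem lwt_chart (hg : IsHerm g) {e : Ch X} (he : e ∈ atlas C2 X) {z : C2} (hz : z ∈ e.target)
    (h0 : ∀ x, σ x ≠ 0) :
    loc0 0 e (lwt g σ) z = lgn (loc0 (-1) e σ) z + ldt g e z := by
  have hd : (jac e (e.symm z)).det ≠ 0 := jac_det_ne_zero he (e.map_target hz)
  have hd' : ‖(jac e (e.symm z)).det‖ ≠ 0 := norm_ne_zero_iff.2 hd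
  rw [lgn_loc0 he hz h0, LB.loc0_zero, Function.comp_apply, lwt, ldt, det_loc11_re,
    Real.log_mul (pow_ne_zero 2 hd') (det_pos hg _).ne']
  have h1 : Real.log (‖(jac e (e.symm z)).det ^ (-1 : ℤ)‖ ^ 2) =
      -Real.log (‖(jac e (e.symm z)).det‖ ^ 2) := by
    rw [zpow_neg_one, norm_inv, inv_pow, Real.log_inv]
  rw [h1]
  push_cast
  ring

theorem contDiffAt_ldt (hg : IsHerm g) {e : Ch X} (he : e ∈ atlas C2 X) {z : C2}
    (hz : z ∈ e.target) : ContDiffAt ℝ ∞ (ldt g e) z :=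
  (Complex.ofRealCLM.contDiff.contDiffAt).comp z
    ((contDiffOn_logdet hg he).contDiffAt (e.open_target.mem_nhds hz))

theorem reg0_lwt (hg : IsHerm g) (hσ : Reg0 ∞ (-1) σ) (h0 : ∀ x, σ x ≠ 0) :
    Reg0 ∞ 0 (lwt g σ) := by
  intro e he z hz
  have hd : (jac e (e.symm z)).det ≠ 0 := jac_det_ne_zero he (e.map_target hz)
  have h1 : loc0 0 e (lwt g σ) =ᶠ[𝓝 z] fun y => lgn (loc0 (-1) e σ) y + ldt g e y := by
    filter_upwards [e.open_target.mem_nhds hz] with y hy
    exact lwt_chart hg he hy h0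
  refine (ContDiffAt.congr_of_eventuallyEq ?_ h1).contDiffWithinAt
  exact (contDiffAt_lgn (hσ.contDiffAt he hz) (smul_ne_zero (zpow_ne_zero _ hd) (h0 _))).add
    (contDiffAt_ldt hg he hz)

/-- `∂∂̄ log (|σ|² det g) = ∂∂̄ log |σ|² + ∂∂̄ log det g` in the preferred chart -/
theorem ddb_lwt (hg : IsHerm g) (hσ : Reg0 ∞ (-1) σ) (h0 : ∀ x, σ x ≠ 0) (x : X) (k l : Fin 2) :
    ddb (lwt g σ) x k l =
      dz k (dzb l (lgn (loc0 (-1) (chartAt C2 x) σ))) (chartAt C2 x x) + ricF g x k l := by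
  set e := chartAt C2 x with he_def
  have he : e ∈ atlas C2 X := chart_mem_atlas C2 x
  have hex : e x ∈ e.target := mem_chart_target C2 x
  have hsm : ∀ z ∈ e.target, ContDiffAt ℝ ∞ (lgn (loc0 (-1) e σ)) z := fun z hz =>
    contDiffAt_lgn (hσ.contDiffAt he hz) (smul_ne_zero
      (zpow_ne_zero _ (jac_det_ne_zero he (e.map_target hz))) (h0 _))
  have h1 : (fun z => loc1 0 e (dbar0 0 (lwt g σ)) z l) =ᶠ[𝓝 (e x)]
      fun z => dzb l (lgn (loc0 (-1) e σ)) z + dzb l (ldt g e) z := by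
    filter_upwards [e.open_target.mem_nhds hex] with z hz
    have hr := reg0_lwt hg hσ h0
    have h2 : loc0 0 e (lwt g σ) =ᶠ[𝓝 z] fun y => lgn (loc0 (-1) e σ) y + ldt g e y := by
      filter_upwards [e.open_target.mem_nhds hz] with y hy
      exact lwt_chart hg he hy h0
    rw [loc1_dbar0 he hz ((hr.contDiffAt he hz).differentiableAt (by simp)) l, dzb_congr h2,
      dzb_add ((hsm z hz).differentiableAt (by simp))
        ((contDiffAt_ldt hg he hz).differentiableAt (by simp))]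
  have h2 : ddb (lwt g σ) x k l =
      dz k (fun z => loc1 0 e (dbar0 0 (lwt g σ)) z l) (e x) := rfl
  have h3 : ricF g x k l = dz k (dzb l (ldt g e)) (e x) := rfl
  rw [h2, h3, dz_congr h1, dz_add]
  · exact (contDiffAt_dzb (m := 1) ((hsm _ hex).of_le two_le_inf)
      (by norm_num) l).differentiableAt (by norm_num)
  · exact (contDiffAt_dzb (m := 1) ((contDiffAt_ldt hg he hex).of_le two_le_inf)
      (by norm_num) l).differentiableAt (by norm_num)

/-- the Ricci form is the Chern form of `K` up to `∂∂̄` of a function -/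
theorem FK_eq (hg : IsHerm g) (K : KBun X ι) :
    FK g = K.L.chern K.a + (⟨0, dbar0 0 (lwt g K.σ)⟩ : OneF X).d := by
  have hN : ∀ x, NVSec K.L (-1) K.σ x := nvSec_of_reg K.sm K.sec K.ne
  have hE : ∀ x, ∀ᶠ y in 𝓝 x, ∀ i, K.L.db0 K.a (-1) K.σ y i = 0 := fun x =>
    Eventually.of_forall K.dbar
  rw [← ddb_eq_d (reg0_lwt hg K.sm K.ne)]
  refine TwoF.ext ?_ ?_ ?_
  · funext x
    change (0 : ℂ) = (K.L.chern K.a).f20 x + 0
    rw [(hN x).chern20 (hE x), add_zero]
  · funext x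
    ext k l
    change ricF g x k l = (K.L.chern K.a).f11 x k l + ddb (lwt g K.σ) x k l
    rw [(hN x).chern11 (hE x), ddb_lwt hg K.sm K.ne]
    ring
  · funext x
    change (0 : ℂ) = (K.L.chern K.a).f02 x + 0
    rw [(hN x).chern02 (hE x), add_zero]

/-- the correction form between the curvature of the canonical bundle and the Ricci form -/
def corr (g : X → Matrix (Fin 2) (Fin 2) ℂ) (K : KBun X ι) : OneF X :=
  imA K.a + ⟨0, dbar0 0 (lwt g K.σ)⟩

theorem smooth_lw (hg : IsHerm g) (K : KBun X ι) :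
    (⟨0, dbar0 0 (lwt g K.σ)⟩ : OneF X).Smooth :=
  ⟨(H469.S10 X).zero_mem, H469.reg_dbar0 (reg0_lwt hg K.sm K.ne)⟩

theorem corr_smooth (hg : IsHerm g) (K : KBun X ι) : (corr g K).Smooth :=
  H662.smooth_add (imA_smooth K.hol.smooth) (smooth_lw hg K)

theorem FK_eq_curv (hg : IsHerm g) (K : KBun X ι) : FK g = K.L.curv + (corr g K).d := by
  rw [FK_eq hg K, corr, H662.d_add (imA_smooth K.hol.smooth) (smooth_lw hg K), H662.chern_eq,
    add_assoc]

end ric

section comp

variable {M N : Type*} [TopologicalSpace M] [ChartedSpace C2 M] [TopologicalSpace N]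
  [ChartedSpace C2 N] [IsManifold 𝓘(ℂ, C2) ω M] [IsManifold 𝓘(ℂ, C2) ω N]

/-- the Ricci form of a pulled back metric -/
theorem ricF_comp {q : M → N} (hq : XT.ChartMap q) (g : N → Matrix (Fin 2) (Fin 2) ℂ) (x : M) :
    ricF (fun y => g (q y)) x = ricF g (q x) := by
  have h := hq.chRel x
  have h1 : (fun z => (Real.log (loc11 (chartAt C2 x) (fun y => g (q y)) z).det.re : ℂ)) =ᶠ[
      𝓝 (chartAt C2 x x)] fun z => (Real.log (loc11 (chartAt C2 (q x)) g z).det.re : ℂ) :=
    (hq.loc11_ev g h).mono fun z hz => by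
      change (Real.log (loc11 (chartAt C2 x) (fun y => g (q y)) z).det.re : ℂ) =
        (Real.log (loc11 (chartAt C2 (q x)) g z).det.re : ℂ)
      rw [hz]
  rw [ricF, ricF, H332.ddz_congr h1, h.apply]

theorem FK_comp {q : M → N} (hq : XT.ChartMap q) (g : N → Matrix (Fin 2) (Fin 2) ℂ) :
    FK (fun y => g (q y)) = XT.pull2 q (FK g) := by
  refine TwoF.ext rfl ?_ rfl
  funext x
  exact ricF_comp hq g x

end comp

end Vale.Agent.P267.H928.K1
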