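import Vale.Agent.P267.H928.K1.Push
import Vale.Agent.P267.H928.K1.Ric
import Vale.Agent.P267.H857.Bridge4

/-!
# P267 / K1: `c₁(K) = ∑ e_i` in `H²(X; ℂ)`, for the bundles `e_i` of block C

`k1` : for any representatives with compact support of the curvatures of the bundles `E_i` on the
infinite cyclic cover, and any representative `G` of the curvature of `K` on `X`,
`G - ∑ p_* F_i` is exact.
`k1_chern` : the same for the Chern forms `chern (a_i)` of compactly supported `(0,1)`-connection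
forms and the Ricci form `FK g = ∂∂̄ log det g`.
-/

set_option linter.unusedVariables false
set_option linter.unusedSectionVars false

open scoped Manifold ContDiff ComplexConjugate
open Set Function
open Vale.Agent.P267.FL Vale.Agent.P267.H857 Vale.Agent.P267.BlockC Vale.Agent.P267.H158
open Vale.Agent.P267.XT Vale.Agent.P267.RR
open Vale.Agent.P267.H662 (imA imA_smooth KBun)
open Vale.Agent.P267.H821 (ricF FK)

noncomputable section

namespace Vale.Agent.P267.H928.K1

/-- the numerical data of block C -/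
structure OutData {X : Type} [TopologicalSpace X] [ChartedSpace C2 X] (h : C(X, UnitAddCircle))
    {n : ℕ} (E : Fin n → ALB (Cov h)) (i₀ : ∀ i, (E i).ι) (R : ℝ) : Prop where
  triv : ∀ i, EndTriv h (E i) (i₀ i) R
  ortho : ∀ (i j k) (L' : LB (Cov h) (E j).ι), IsShift h k (E j).L L' →
    isec (E i).L L' = if i = j ∧ k = 0 then -1 else 0
  canon : ∀ (i) (K : ALB (Cov h)), IsCanon K.L → isec K.L (E i).L = -1

/-- the data of `BlockC.Out` -/
theorem OutData.of_out {X : Type} [TopologicalSpace X] [ChartedSpace C2 X]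
    {h : C(X, UnitAddCircle)} {n : ℕ} (hO : Out h n) :
    ∃ (E : Fin n → ALB (Cov h)) (i₀ : ∀ i, (E i).ι) (R : ℝ), 0 ≤ R ∧ OutData h E i₀ R := by
  obtain ⟨E, i₀, R, hR, h1, h2, h3, -⟩ := hO
  exact ⟨E, i₀, R, hR, h1, h2, h3⟩

section alg

theorem pi4_ne : (4 * (Real.pi : ℂ) ^ 2) ≠ 0 :=
  mul_ne_zero (by norm_num) (pow_ne_zero 2 (Complex.ofReal_ne_zero.2 Real.pi_ne_zero))

theorem intX_of_isec {M : Type*} [TopologicalSpace M] [ChartedSpace C2 M] {ι ι' : Type} [Fintype ι]
    [DecidableEq ι] [Fintype ι'] [DecidableEq ι'] {L : LB M ι} {L' : LB M ι'} {t : ℂ}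
    (ht : isec L L' = -t) : pair L.curv L'.curv = (4 * (Real.pi : ℂ) ^ 2) * t := by
  have h1 : -(1 / (4 * (Real.pi : ℂ) ^ 2)) * pair L.curv L'.curv = -t := ht
  have h2 := pi4_ne
  field_simp at h1
  linear_combination -h1

end alg

section cover

variable {X : Type} [TopologicalSpace X] [T2Space X] [CompactSpace X] [ChartedSpace C2 X]
  [IsManifold 𝓘(ℂ, C2) ω X] {h : C(X, UnitAddCircle)}

/-- the form vanishes outside a compact set iff it vanishes for large `|f|` -/
theorem cs_of_cf {F : TwoF (Cov h)} (hF : CF F) : CS F := by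
  obtain ⟨K, hK, h0⟩ := hF
  obtain ⟨B, hB⟩ := (hK.image (Cov.continuous_f (h := h)).abs).bddAbove
  refine ⟨B + 1, fun x hx => h0 x fun hxK => ?_⟩
  have : |Cov.f x| ≤ B := hB (mem_image_of_mem _ hxK)
  linarith

/-- Stokes, the one-form is compactly supported -/
theorem pair_d_cf {A : OneF (Cov h)} {F : TwoF (Cov h)} (hA : A.Smooth) (hc : CF1 A)
    (hF : F.Smooth) (hF' : F.Closed) : pair A.d F = 0 := by
  obtain ⟨K, hK, h0⟩ := hc
  exact intX_dA_wedge hA.c1 hF.c1 hF' hK fun x hx => Or.inl (h0 x hx)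

/-- Stokes, the two-form is compactly supported -/
theorem pair_d_cs {A : OneF (Cov h)} {F : TwoF (Cov h)} (hA : A.Smooth)
    (hF : F.Smooth) (hF' : F.Closed) (hc : CS F) : pair A.d F = 0 := by
  obtain ⟨K, hK, h0⟩ := cf_of_cs hc
  exact intX_dA_wedge hA.c1 hF.c1 hF' hK fun x hx => Or.inr (h0 x hx)

theorem closed_shF (k : ℤ) {F : TwoF (Cov h)} (hF : F.Closed) : (shF k F).Closed :=
  (chartMap_shift (-k)).closed_pull2 hF

theorem smooth_shF (k : ℤ) {F : TwoF (Cov h)} (hF : F.Smooth) : (shF k F).Smooth :=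
  (chartMap_shift (-k)).smooth_pull2 hF

/-- pairing depends only on the classes with compact support -/
theorem pair_congr_left {F F' G : TwoF (Cov h)} {A : OneF (Cov h)} (hF' : F'.Smooth)
    (hc' : CS F') (hA : A.Smooth) (hc : CF1 A) (hFA : F = F' + A.d) (hG : G.Smooth)
    (hG' : G.Closed) : pair F G = pair F' G := by
  rw [hFA, BlockC.pair_add hF' (smooth_d hA) hG (hc'.compact_wedge G)
    ((cs_of_cf hc.d).compact_wedge G), pair_d_cf hA hc hG hG', add_zero]

variable {n : ℕ} {E : Fin n → ALB (Cov h)} {i₀ : ∀ i, (E i).ι} {R : ℝ}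

theorem OutData.cs (hO : OutData h E i₀ R) (i : Fin n) : CS (E i).L.curv := curv_cs (hO.triv i)

theorem OutData.pair_curv (hO : OutData h E i₀ R) (i j : Fin n) (k : ℤ) :
    pair (E i).L.curv (shF k (E j).L.curv) =
      if i = j ∧ k = 0 then 4 * (Real.pi : ℂ) ^ 2 else 0 := by
  obtain ⟨L', hL'⟩ := (covMapFacts h).exists_shift k (E j)
  have h1 := hO.ortho i j k L' hL'
  have h2 := (covMapFacts h).curv_shift k (E j) L' hL'
  rw [← h2]
  split_ifs with hij
  · rw [if_pos hij] at h1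
    rw [intX_of_isec (t := 1) h1, mul_one]
  · rw [if_neg hij] at h1
    rw [intX_of_isec (t := 0) (by rw [h1, neg_zero]), mul_zero]

theorem OutData.pair_canon (hO : OutData h E i₀ R) (i : Fin n) {ι : Type} [Fintype ι]
    [DecidableEq ι] {K : LB X ι} (hK : IsCanon K) :
    pair (E i).L.curv (pull2 Cov.p K.curv) = 4 * (Real.pi : ℂ) ^ 2 := by
  have hq := chartMap_p (hh := h)
  have h1 := hO.canon i ⟨ι, hq.lb K⟩ (H662.isCanon_pull hq hK)
  have h2 : (hq.lb K).curv = pull2 Cov.p K.curv := hq.lb_curv K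
  rw [BlockC.pair_comm, ← h2, intX_of_isec (t := 1) h1, mul_one]

/-- **K1.** -/
theorem k1 (hO : OutData h E i₀ R) (hB : BettiSucc X 1 n) {F : Fin n → TwoF (Cov h)}
    {A : Fin n → OneF (Cov h)} (hA : ∀ i, (A i).Smooth) (hAc : ∀ i, CF1 (A i))
    (hFA : ∀ i, F i = (E i).L.curv + (A i).d) {ι : Type} [Fintype ι] [DecidableEq ι] {K : LB X ι}
    (hK : IsCanon K) {B : OneF X} (hB' : B.Smooth) {G : TwoF X} (hG : G = K.curv + B.d) :
    ∃ β : OneF X, β.Smooth ∧ β.d = G - ∑ i, push2 Cov.p (F i) := by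
  have hq := chartMap_p (hh := h)
  have hFs : ∀ i, (F i).Smooth := fun i => by
    rw [hFA]
    exact BlockC.smooth_add (LB.curv_smooth _) (smooth_d (hA i))
  have hFc : ∀ i, (F i).Closed := fun i => by
    rw [hFA]
    exact BlockC.closed_add (LB.curv_smooth _) (smooth_d (hA i)) (LB.curv_closed _)
      (closed_d (hA i))
  have hcs : ∀ i, CS (F i) := fun i => by
    rw [hFA]
    exact (hO.cs i).add (cs_of_cf (hAc i).d)
  have hGs : G.Smooth := by
    rw [hG]
    exact BlockC.smooth_add (LB.curv_smooth _) (smooth_d hB')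
  have hGc : G.Closed := by
    rw [hG]
    exact BlockC.closed_add (LB.curv_smooth _) (smooth_d hB') (LB.curv_closed _) (closed_d hB')
  refine exists_push hB pi4_ne hFs hFc hcs (fun i j k => ?_) hGs hGc fun i => ?_
  · rw [pair_congr_left (LB.curv_smooth _) (hO.cs i) (hA i) (hAc i) (hFA i)
      (smooth_shF k (hFs j)) (closed_shF k (hFc j)), BlockC.pair_comm]
    have h1 : shF k (F j) = shF k (E j).L.curv + (pull1 (Cov.shift (-k)) (A j)).d := by
      rw [(chartMap_shift (-k)).d_pull1, hFA j]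
      rfl
    have h2 : (pull1 (Cov.shift (-k)) (A j) : OneF (Cov h)).Smooth :=
      ⟨(chartMap_shift (-k)).reg10_comp (hA j).s10, (chartMap_shift (-k)).reg1_comp (hA j).s01⟩
    have h3 : CF1 (pull1 (Cov.shift (-k)) (A j) : OneF (Cov h)) := by
      obtain ⟨K', hK', h0⟩ := hAc j
      refine ⟨Cov.shift k '' K', hK'.image (Cov.shift k).continuous, fun x hx => h0 _ fun hx' =>
        hx ⟨_, hx', ?_⟩⟩
      exact Cov.shift_shift_neg k x
    rw [pair_congr_left (smooth_shF k (LB.curv_smooth _)) ((hO.cs j).sh k) h2 h3 h1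
      (LB.curv_smooth _) (LB.curv_closed _), BlockC.pair_comm]
    exact hO.pair_curv i j k
  · rw [pair_congr_left (LB.curv_smooth _) (hO.cs i) (hA i) (hAc i) (hFA i)
      (hq.smooth_pull2 hGs) (hq.closed_pull2 hGc), BlockC.pair_comm]
    have h1 : (pull2 Cov.p G : TwoF (Cov h)) =
        pull2 Cov.p K.curv + (pull1 Cov.p B : OneF (Cov h)).d := by
      rw [hq.d_pull1, hG]
      rfl
    have h2 : (pull1 Cov.p B : OneF (Cov h)).Smooth := ⟨hq.reg10_comp hB'.s10, hq.reg1_comp hB'.s01⟩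
    have hsm : (pull2 Cov.p K.curv : TwoF (Cov h)).Smooth := hq.smooth_pull2 (LB.curv_smooth _)
    rw [h1, BlockC.pair_add hsm (smooth_d h2) (LB.curv_smooth _)
      (by rw [wedge_comm]; exact (hO.cs i).compact_wedge _)
      (by rw [wedge_comm]; exact (hO.cs i).compact_wedge _),
      pair_d_cs h2 (LB.curv_smooth _) (LB.curv_closed _) (hO.cs i), add_zero, BlockC.pair_comm]
    exact hO.pair_canon i hK

/-- the connection form vanishes for large `|f|` -/
theorem cf1_imA {a : Cov h → Fin 2 → ℂ} {R' : ℝ} (h0 : ∀ x, R' ≤ |Cov.f x| → a x = 0) :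
    CF1 (imA a) := by
  refine ⟨_, isCompact_band R', fun x hx => ?_⟩
  have h1 := h0 x (not_le.1 hx).le
  constructor
  · change (fun i => -conj (a x i)) = 0
    rw [h1]
    funext i
    simp
  · exact h1

theorem chern_cs (hO : OutData h E i₀ R) (i : Fin n) {a : Cov h → Fin 2 → ℂ} {R' : ℝ}
    (h0 : ∀ x, R' ≤ |Cov.f x| → a x = 0) : CS ((E i).L.chern a) := by
  rw [H662.chern_eq]
  exact (hO.cs i).add (cs_of_cf (cf1_imA h0).d)

/-- **K1 with Chern forms.** `a_i` compactly supported connection forms on the bundles of block C,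
`g` a hermitian metric on `X`. -/
theorem k1_chern (hO : OutData h E i₀ R) (hB : BettiSucc X 1 n)
    {a : Fin n → Cov h → Fin 2 → ℂ} (ha : ∀ i, Reg1 ∞ 0 (a i)) {R' : ℝ}
    (h0 : ∀ i x, R' ≤ |Cov.f x| → a i x = 0) {g : X → Matrix (Fin 2) (Fin 2) ℂ}
    (hg : IsHerm g) :
    ∃ β : OneF X, β.Smooth ∧ β.d = FK g - ∑ i, push2 Cov.p ((E i).L.chern (a i)) := by
  obtain ⟨N, ⟨K⟩⟩ := H662.exists_KBun (X := X)
  exact k1 hO hB (fun i => imA_smooth (ha i)) (fun i => cf1_imA (h0 i))
    (fun i => H662.chern_eq _ _) K.isCanon (corr_smooth hg K) (FK_eq_curv hg K)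

/-- **K1 on the cover.** -/
theorem k1_cover (hO : OutData h E i₀ R) (hB : BettiSucc X 1 n)
    {a : Fin n → Cov h → Fin 2 → ℂ} (ha : ∀ i, Reg1 ∞ 0 (a i)) {R' : ℝ}
    (h0 : ∀ i x, R' ≤ |Cov.f x| → a i x = 0) {g : X → Matrix (Fin 2) (Fin 2) ℂ}
    (hg : IsHerm g) :
    ∃ β : OneF X, β.Smooth ∧ β.d = FK g - ∑ i, push2 Cov.p ((E i).L.chern (a i)) ∧
      ∀ z : Cov h, tot (pull1 Cov.p β : OneF (Cov h)).d z =
        tot (FK fun y : Cov h => g (Cov.p y)) z -
          ∑ i, ∑ᶠ k : ℤ, tot ((E i).L.chern (a i)) (Cov.shift k z) := by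
  obtain ⟨β, h1, h2⟩ := k1_chern hO hB ha h0 hg
  refine ⟨β, h1, h2, fun z => ?_⟩
  rw [pull_exact (fun i => chern_cs hO i (h0 i)) h2 z, FK_comp (chartMap_p (hh := h)) g]
  rfl

end cover

end Vale.Agent.P267.H928.K1
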