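import Vale.Agent.P267.H283.Facts2
import Vale.Agent.P267.H857.Betti2

/-!
# P267 / K1 (1): closed two-forms on a closed surface and an orthogonal basis of classes
-/

set_option linter.unusedSectionVars false

open scoped Manifold ContDiff ComplexConjugate
open Set
open Vale.Agent.P267.FL Vale.Agent.P267.H857 Vale.Agent.P267.BlockC

noncomputable section

namespace Vale.Agent.P267.H928.K1

variable {Y : Type} [TopologicalSpace Y] [ChartedSpace C2 Y] [IsManifold 𝓘(ℂ, C2) ω Y]
  [T2Space Y] [CompactSpace Y]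

theorem pair_add_closed {F F' G : TwoF Y} (hF : F.Smooth) (hF' : F'.Smooth) (hG : G.Smooth) :
    pair (F + F') G = pair F G + pair F' G :=
  BlockC.pair_add hF hF' hG (HasCompactSupport.of_compactSpace _)
    (HasCompactSupport.of_compactSpace _)

theorem pair_smul_closed (c : ℂ) {F G : TwoF Y} (hF : F.Smooth) (hG : G.Smooth) :
    pair (c • F) G = c * pair F G :=
  BlockC.pair_smul c hF hG (HasCompactSupport.of_compactSpace _)

theorem pair_exact {F G : TwoF Y} (hF : ExactTwo F) (hG : G.Smooth) (hG' : G.Closed) :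
    pair F G = 0 := by
  obtain ⟨A, hA, rfl⟩ := hF
  exact BlockC.pair_d' hA hG hG' isCompact_univ fun x hx => absurd (mem_univ x) hx

/-- pairing with finitely many forms -/
def phi {n : ℕ} (c : ℂ) (w : Fin n → TwoF Y) (hw : ∀ i, (w i).Smooth) :
    Z2F Y →ₗ[ℂ] (Fin n → ℂ) where
  toFun F := fun i => pair F.1 (w i) / c
  map_add' F G := by
    funext i
    rw [Submodule.coe_add, pair_add_closed (mem_Z2F.1 F.2).1 (mem_Z2F.1 G.2).1 (hw i),
      Pi.add_apply, add_div]
  map_smul' t F := by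
    funext i
    rw [Submodule.coe_smul, pair_smul_closed t (mem_Z2F.1 F.2).1 (hw i), Pi.smul_apply,
      RingHom.id_apply, smul_eq_mul, mul_div_assoc]

/-- **K1, general form.** Closed forms with a nondegenerate orthogonal Gram matrix span the second
cohomology if there are enough of them. -/
theorem exact_of_orthogonal {n : ℕ} (hB : BettiSucc Y 1 n) {c : ℂ} (hc : c ≠ 0)
    {w : Fin n → TwoF Y} (hw : ∀ i, (w i).Smooth) (hw' : ∀ i, (w i).Closed)
    (hp : ∀ i j, pair (w i) (w j) = if i = j then c else 0) {F : TwoF Y} (hF : F.Smooth)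
    (hF' : F.Closed) : ExactTwo (F - ∑ i, (pair F (w i) / c) • w i) := by
  classical
  obtain ⟨hfin, hrank⟩ := (isBetti_iff_finrank _ _ n).1 ((bettiSucc_one_iff n).1 hB)
  have hker : (B2F Y).comap (Z2F Y).subtype ≤ LinearMap.ker (phi c w hw) := by
    intro G hG
    obtain ⟨A, hA, hA'⟩ := mem_B2F.1 hG
    have hA2 : A.d = G.1 := by
      rw [← hA']; rfl
    rw [LinearMap.mem_ker]
    funext i
    change pair G.1 (w i) / c = 0
    rw [pair_exact ⟨A, hA, hA2⟩ (hw i) (hw' i), zero_div]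
  set ψ : HQ (Z2F Y) (B2F Y) →ₗ[ℂ] (Fin n → ℂ) := Submodule.liftQ _ (phi c w hw) hker
  have hψ : ∀ G : Z2F Y, ψ (Submodule.Quotient.mk G) = phi c w hw G := fun G => rfl
  have hwZ : ∀ i, w i ∈ Z2F Y := fun i => mem_Z2F.2 ⟨hw i, hw' i⟩
  have hφw : ∀ i, phi c w hw ⟨w i, hwZ i⟩ = Pi.single i 1 := by
    intro i
    funext j
    change pair (w i) (w j) / c = _
    rw [hp, Pi.single_apply]
    by_cases h : i = j
    · rw [if_pos h, if_pos h.symm, div_self hc]
    · rw [if_neg h, if_neg (Ne.symm h), zero_div]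
  have hsurj : Function.Surjective ψ := by
    intro t
    refine ⟨Submodule.Quotient.mk (∑ i, t i • (⟨w i, hwZ i⟩ : Z2F Y)), ?_⟩
    rw [hψ, map_sum]
    simp only [map_smul, hφw]
    funext j
    simp [Finset.sum_apply, Pi.single_apply]
  have hinj : Function.Injective ψ := by
    refine (LinearMap.injective_iff_surjective_of_finrank_eq_finrank ?_).2 hsurj
    rw [hrank, Module.finrank_fin_fun]
  have hFZ : F ∈ Z2F Y := mem_Z2F.2 ⟨hF, hF'⟩
  set G : Z2F Y := ⟨F, hFZ⟩ - ∑ i, (pair F (w i) / c) • (⟨w i, hwZ i⟩ : Z2F Y) with hG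
  have hG0 : ψ (Submodule.Quotient.mk G) = 0 := by
    rw [hψ, hG, map_sub, map_sum]
    simp only [map_smul, hφw]
    funext j
    have h1 : phi c w hw ⟨F, hFZ⟩ j = pair F (w j) / c := rfl
    rw [Pi.sub_apply, h1]
    simp [Finset.sum_apply, Pi.single_apply]
  have hG1 : (Submodule.Quotient.mk G : HQ (Z2F Y) (B2F Y)) = 0 := hinj (by rw [hG0, map_zero])
  rw [Submodule.Quotient.mk_eq_zero] at hG1
  obtain ⟨A, hA, hA'⟩ := mem_B2F.1 hG1
  refine ⟨A, hA, ?_⟩
  rw [← hA']
  simp [hG]

end Vale.Agent.P267.H928.K1
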