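import Vale.Agent.P267.H928.K1.Gen
import Vale.Agent.P267.H622.CovFacts

/-!
# P267 / K1 (2): the push-forwards of an orthonormal system of the infinite cyclic cover
-/

set_option linter.unusedVariables false
set_option linter.unusedSectionVars false

open scoped Manifold ContDiff ComplexConjugate
open Set Function
open Vale.Agent.P267.FL Vale.Agent.P267.H857 Vale.Agent.P267.BlockC Vale.Agent.P267.H158
open Vale.Agent.P267.XT Vale.Agent.P267.H928

noncomputable section

namespace Vale.Agent.P267.H928.K1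

variable {X : Type} [TopologicalSpace X] [T2Space X] [CompactSpace X] [ChartedSpace C2 X]
  [IsManifold 𝓘(ℂ, C2) ω X] {h : C(X, UnitAddCircle)}

theorem finite_tot1 {F : TwoF (Cov h)} (hF : CS F) (z : Cov h) :
    (Function.support fun k : ℤ => tot F (Cov.shift k z)).Finite := by
  have := finite_tot (m := 1) hF z
  simpa using this

/-- the pull-back of the push-forward is the sum over all translates -/
theorem tot_pull_push {F : TwoF (Cov h)} (hF : CS F) (z : Cov h) :
    tot (pull2 Cov.p (push2 Cov.p F)) z = ∑ᶠ k : ℤ, tot F (Cov.shift k z) := by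
  have h2 := tot_push2 (chartMap_p (hh := h)) (cf_of_cs hF) (Cov.p z)
  rw [push_p] at h2
  exact h2

theorem wedge_pull_push {F : TwoF (Cov h)} (hF : CS F) (G : TwoF (Cov h)) (z : Cov h) :
    G.wedge (pull2 Cov.p (push2 Cov.p F)) z = ∑ᶠ k : ℤ, G.wedge (shF k F) z := by
  rw [wedge_eq_wdg, tot_pull_push hF, ← wdgR_apply,
    AddMonoidHom.map_finsum _ (finite_tot1 hF z)]
  rw [← finsum_comp_equiv (Equiv.neg ℤ)]
  refine finsum_congr fun k => ?_
  rw [wdgR_apply, wedge_eq_wdg]
  rfl

/-- `∫ G ∧ p^* p_* F = ∑_k ∫ G ∧ γ^k F` -/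
theorem pair_pull_push {F G : TwoF (Cov h)} (hF : F.Smooth) (hG : G.Smooth)
    (hcF : CS F) (hcG : CS G) :
    pair G (pull2 Cov.p (push2 Cov.p F)) = ∑ᶠ k : ℤ, pair G (shF k F) := by
  obtain ⟨N, hN⟩ := hcG.wedge_sh hcF
  have hN' : ∀ k : ℤ, k ∉ Finset.Icc (-(N : ℤ)) N → G.wedge (shF k F) = 0 := by
    intro k hk
    refine hN _ ?_
    rw [Finset.mem_Icc, ← abs_le, not_le] at hk
    exact hk.le
  have hr : ∀ k : ℤ, Reg2 0 1 (G.wedge (shF k F)) := fun k => by
    have h1 : Reg2 ∞ 1 (G.wedge (shF k F)) :=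
      H469.wedge_mem hG ((chartMap_shift _).smooth_pull2 hF)
    exact h1.of_le zero_le
  have hc : ∀ k : ℤ, HasCompactSupport (G.wedge (shF k F)) := fun k =>
    hcG.compact_wedge _
  have h1 : G.wedge (pull2 Cov.p (push2 Cov.p F)) =
      ∑ k ∈ Finset.Icc (-(N : ℤ)) N, G.wedge (shF k F) := by
    funext z
    rw [wedge_pull_push hcF, Finset.sum_apply]
    refine finsum_eq_sum_of_support_subset _ fun k hk => ?_
    by_contra hk'
    exact hk (congrFun (hN' k hk') z)
  rw [pair, h1, finsum_eq_sum_of_support_subset (s := Finset.Icc (-(N : ℤ)) N) _ fun k hk => by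
    by_contra hk'
    exact hk (by
      change pair G (shF k F) = 0
      rw [pair, hN' k hk', BlockC.intX_zero])]
  have h2 : HasCompactSupport (∑ k ∈ Finset.Icc (-(N : ℤ)) N, G.wedge (shF k F)) := by
    rw [← h1]
    exact hcG.compact_wedge _
  have h3 : ∀ k ∈ Finset.Icc (-(N : ℤ)) N, IntegrableX (G.wedge (shF k F)) := fun k _ =>
    integrableX_of_reg (hr k) (hc k)
  have h4 : IntegrableX (∑ k ∈ Finset.Icc (-(N : ℤ)) N, G.wedge (shF k F)) :=
    integrableX_of_reg (Reg2.sum fun k _ => hr k) h2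
  rw [intX_eq_intV h4 h2, intV_sum _ h3]
  exact Finset.sum_congr rfl fun k hk => (intX_eq_intV (h3 k hk) (hc k)).symm

/-- `∫_X p_* G ∧ p_* F = ∑_k ∫ G ∧ γ^k F` -/
theorem pair_push_push {F G : TwoF (Cov h)} (hF : F.Smooth) (hG : G.Smooth)
    (hcF : CS F) (hcG : CS G) :
    pair (push2 Cov.p G) (push2 Cov.p F) = ∑ᶠ k : ℤ, pair G (shF k F) := by
  rw [← pair_pull_push hF hG hcF hcG]
  exact intX_push_wedge (chartMap_p (hh := h)) hG
    (smooth_push2 (chartMap_p (hh := h)) hF (cf_of_cs hcF)) (cf_of_cs hcG)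

theorem shF_zero (F : TwoF (Cov h)) : shF 0 F = F := by
  refine twoF_ext (fun x => ?_) (fun x => ?_) fun x => ?_ <;> simp [shF]

/-- **K1, push-forward form.** Closed forms on the infinite cyclic cover, supported between the two
ends, orthonormal together with all their translates, which have the same pairing with `p^* G`:
if there are `b₂(X)` of them, then `G - ∑ p_* F_i` is exact. -/
theorem exists_push {n : ℕ} (hB : BettiSucc X 1 n) {c : ℂ} (hc : c ≠ 0)
    {F : Fin n → TwoF (Cov h)} (hF : ∀ i, (F i).Smooth) (hF' : ∀ i, (F i).Closed)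
    (hcs : ∀ i, CS (F i))
    (hp : ∀ i j (k : ℤ), pair (F i) (shF k (F j)) = if i = j ∧ k = 0 then c else 0)
    {G : TwoF X} (hG : G.Smooth) (hG' : G.Closed)
    (hpG : ∀ i, pair (F i) (pull2 Cov.p G) = c) :
    ∃ β : OneF X, β.Smooth ∧ β.d = G - ∑ i, push2 Cov.p (F i) := by
  have hq := chartMap_p (hh := h)
  have hw : ∀ i, (push2 Cov.p (F i)).Smooth := fun i => smooth_push2 hq (hF i) (cf_of_cs (hcs i))
  have hw' : ∀ i, (push2 Cov.p (F i)).Closed := fun i =>
    closed_push2 hq (hF i) (cf_of_cs (hcs i)) (hF' i)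
  have hpp : ∀ i j, pair (push2 Cov.p (F i)) (push2 Cov.p (F j)) = if i = j then c else 0 := by
    intro i j
    rw [pair_push_push (hF j) (hF i) (hcs j) (hcs i), finsum_congr (hp i j)]
    by_cases hij : i = j
    · rw [if_pos hij, finsum_eq_single _ (0 : ℤ) fun k hk => if_neg fun hk' => hk hk'.2]
      rw [if_pos ⟨hij, rfl⟩]
    · rw [if_neg hij, finsum_eq_zero_of_forall_eq_zero fun k => if_neg fun hk' => hij hk'.1]
  have hGw : ∀ i, pair G (push2 Cov.p (F i)) = c := by
    intro i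
    rw [BlockC.pair_comm, ← hpG i]
    exact intX_push_wedge hq (hF i) hG (cf_of_cs (hcs i))
  obtain ⟨A, hA, hA'⟩ := exact_of_orthogonal hB hc hw hw' hpp hG hG'
  refine ⟨A, hA, hA'.trans ?_⟩
  congr 1
  refine Finset.sum_congr rfl fun i _ => ?_
  rw [hGw, div_self hc, one_smul]

/-- the same on the cover -/
theorem pull_exact {n : ℕ} {F : Fin n → TwoF (Cov h)} (hcs : ∀ i, CS (F i)) {G : TwoF X}
    {β : OneF X} (hβ : β.d = G - ∑ i, push2 Cov.p (F i)) (z : Cov h) :
    tot (pull1 Cov.p β : OneF (Cov h)).d z =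
      tot G (Cov.p z) - ∑ i, ∑ᶠ k : ℤ, tot (F i) (Cov.shift k z) := by
  rw [(chartMap_p (hh := h)).d_pull1, hβ]
  have h1 : ∀ (s : Finset (Fin n)) (w : Fin n → TwoF X) (x : X),
      tot (∑ i ∈ s, w i) x = ∑ i ∈ s, tot (w i) x := by
    intro s w x
    classical
    induction s using Finset.induction_on with
    | empty => simp [tot]
    | insert a s ha ih =>
      rw [Finset.sum_insert ha, Finset.sum_insert ha, ← ih]
      simp [tot]
  have h2 : tot (pull2 Cov.p (G - ∑ i, push2 Cov.p (F i)) : TwoF (Cov h)) z =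
      tot G (Cov.p z) - tot (∑ i, push2 Cov.p (F i)) (Cov.p z) := by
    simp [tot, pull2]
  rw [h2, h1]
  congr 1
  exact Finset.sum_congr rfl fun i _ => tot_pull_push (hcs i) z

end Vale.Agent.P267.H928.K1
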